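import Vale.Agent.P207.N3.H722.GeoIn
import Vale.Agent.P207.N3.H459.Inv
import Vale.Agent.P207.N3.H908.Mixed
import Vale.Agent.P207.N3.H442.SmoothSpec

/-!
# P207, line N3, row P12G: from `GeoIn` to the smooth boundary (helper289)

`sbOf I H` is the structure `H908.SB` of the geometry `I`. If the Hessians of the Busemann
functions are smooth functions of the covector, then all transition maps are smooth and the
function `D` of `A` is smooth off the diagonal.
-/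

set_option linter.unusedSectionVars false

open Set Filter Topology Metric MeasureTheory
open scoped ContDiff

noncomputable section

namespace Vale.Agent.P207.N3.H289

open Vale.Agent.P207.N3.H76 (pk tl e0 sg)
open Vale.Agent.P207.N3.H722 (GeoIn HessIn)

variable {Γ X B : Type} [Group Γ] [MetricSpace X] [ProperSpace X] [MulAction Γ X]
  [IsIsometricSMul Γ X] [TopologicalSpace B] [CompactSpace B] [T2Space B] [MulAction Γ B]
  [ContinuousConstSMul Γ B]
  {L : Leaf Γ X B} {V : Type} [NormedAddCommGroup V] [NormedSpace ℝ V]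
  [FiniteDimensional ℝ V] (I : GeoIn L V)

/-! ### the differentials of the Busemann functions -/

theorem db_eq (ξ : B) (q : V) : fderiv ℝ (I.b ξ) q = I.G q (I.vel ξ q) :=
  I.b_fderiv H459.invThm ξ q

theorem db_line (ξ : B) (q : V) :
    fderiv ℝ (I.b (I.S.line ξ q)) q = -fderiv ℝ (I.b ξ) q := by
  rw [db_eq, db_eq, I.vel_line H459.invThm, map_neg]

theorem G_inj {q v w : V} (h : I.G q v = I.G q w) : v = w := by
  by_contra hne
  have h1 := I.G_pos q (v - w) (sub_ne_zero.2 hne)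
  have h2 : I.G q (v - w) = 0 := by rw [map_sub, h, sub_self]
  rw [h2] at h1
  simp at h1

theorem db_inj {ξ η : B} {q : V} (h : fderiv ℝ (I.b ξ) q = fderiv ℝ (I.b η) q) : ξ = η := by
  rw [db_eq, db_eq] at h
  exact I.vel_inj H459.invThm (G_inj I h)

/-! ### the dual metric -/

theorem G_bij (q : V) : Function.Bijective (I.G q) := by
  have hinj : Function.Injective (I.G q) := fun v w h => G_inj I h
  have hfin : Module.finrank ℝ V = Module.finrank ℝ (V →L[ℝ] ℝ) := by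
    have h1 : Module.finrank ℝ (Module.Dual ℝ V) = Module.finrank ℝ V := Subspace.dual_finrank_eq
    have h2 : Module.finrank ℝ (V →L[ℝ] ℝ) = Module.finrank ℝ (Module.Dual ℝ V) :=
      (LinearMap.toContinuousLinearMap (𝕜 := ℝ) (E := V) (F' := ℝ)).symm.finrank_eq
    rw [h2, h1]
  exact ⟨hinj, (LinearMap.injective_iff_surjective_of_finrank_eq_finrank
    (f := (I.G q).toLinearMap) hfin).1 hinj⟩

theorem G_invertible (q : V) : (I.G q).IsInvertible :=
  H459.isInvertible_of_bijective (G_bij I q)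

/-- the dual metric -/
def sh (q : V) : (V →L[ℝ] ℝ) →L[ℝ] V := (I.G q).inverse

theorem G_sh (q : V) (l : V →L[ℝ] ℝ) : I.G q (sh I q l) = l := by
  obtain ⟨e, he⟩ := G_invertible I q
  rw [sh, ← he, ContinuousLinearMap.inverse_equiv]
  exact e.apply_symm_apply l

theorem sh_G (q v : V) : sh I q (I.G q v) = v := G_inj I (G_sh I q _)

theorem sh_smooth : ContDiff ℝ ∞ (sh I) := by
  rw [contDiff_iff_contDiffAt]
  intro q
  obtain ⟨e, he⟩ := G_invertible I q
  have : CompleteSpace V := FiniteDimensional.complete ℝ V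
  have h1 : ContDiffAt ℝ ∞ ContinuousLinearMap.inverse (I.G q) := by
    rw [← he]
    exact contDiffAt_map_inverse e
  exact h1.comp q I.G_smooth.contDiffAt

theorem sh_symm (q : V) (l l' : V →L[ℝ] ℝ) : l' (sh I q l) = l (sh I q l') := by
  conv_lhs => rw [← G_sh I q l']
  conv_rhs => rw [← G_sh I q l]
  exact I.G_symm q _ _

theorem db_surj (q : V) (l : V →L[ℝ] ℝ) (hl : l ≠ 0) :
    ∃ ξ, ∃ c : ℝ, 0 < c ∧ l = c • fderiv ℝ (I.b ξ) q := by
  set v := sh I q l with hv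
  have hGv : I.G q v = l := G_sh I q l
  have hv0 : v ≠ 0 := by
    intro h
    rw [h, map_zero] at hGv
    exact hl hGv.symm
  have hpos : 0 < I.G q v v := I.G_pos q v hv0
  set c := Real.sqrt (I.G q v v) with hc
  have hc0 : 0 < c := Real.sqrt_pos.2 hpos
  have hcc : c * c = I.G q v v := Real.mul_self_sqrt hpos.le
  obtain ⟨ξ, hξ⟩ := I.exists_vel H459.invThm (q := q) (v := c⁻¹ • v) (by
    simp only [map_smul, smul_apply, smul_eq_mul]
    rw [← hcc]
    field_simp)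
  refine ⟨ξ, c, hc0, ?_⟩
  rw [db_eq, hξ, map_smul, smul_smul, mul_inv_cancel₀ hc0.ne', one_smul, hGv]

/-! ### positivity -/

variable {I}

theorem hess_add {ξ η : B} {q : V} :
    fderiv ℝ (fderiv ℝ (fun q => I.b ξ q + I.b η q)) q =
      fderiv ℝ (fderiv ℝ (I.b ξ)) q + fderiv ℝ (fderiv ℝ (I.b η)) q := by
  have h1 : fderiv ℝ (fun q => I.b ξ q + I.b η q) =
      fun q => fderiv ℝ (I.b ξ) q + fderiv ℝ (I.b η) q := by
    funext q
    exact fderiv_fun_add (I.b_jc.differentiableAt (mem_univ (ξ, q)))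
      (I.b_jc.differentiableAt (mem_univ (η, q)))
  have h2 : DifferentiableAt ℝ (fderiv ℝ (I.b ξ)) q :=
    I.b_jc.fderiv.differentiableAt (mem_univ (ξ, q))
  have h3 : DifferentiableAt ℝ (fderiv ℝ (I.b η)) q :=
    I.b_jc.fderiv.differentiableAt (mem_univ (η, q))
  rw [h1]
  exact fderiv_fun_add h2 h3

theorem hess_pos {M : Metr L} (hH : HessIn I M) (ξ : B) (q v : V)
    (hv : fderiv ℝ (I.b ξ) q v = 0) (h0 : v ≠ 0) :
    0 < fderiv ℝ (fderiv ℝ (I.b ξ)) q v v + fderiv ℝ (fderiv ℝ (I.b (I.S.line ξ q))) q v v := by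
  obtain ⟨x, h1, h2, h3⟩ := I.exists_frame ξ q
  subst h2
  rw [← h1] at hv ⊢
  rw [I.line_eq]
  obtain ⟨c, rfl⟩ := (I.E_bij x).2 v
  rw [db_eq, I.vel_eq H459.invThm, I.G_E] at hv
  have hc0 : c 0 = 0 := by
    have h4 : inner ℝ e0 c = c 0 := by
      rw [PiLp.inner_apply, Fin.sum_univ_three]
      have e1 : (e0 : E3) 0 = 1 := rfl
      have e2 : (e0 : E3) 1 = 0 := rfl
      have e3 : (e0 : E3) 2 = 0 := rfl
      simp [e1, e2, e3]
    rw [← h4]
    exact hv
  have hc : c = pk 0 (tl c) := by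
    conv_lhs => rw [← H76.pk_tl c, hc0]
  have htl : tl c ≠ 0 := by
    intro h4
    apply h0
    rw [hc, h4]
    have h5 : pk 0 (0 : E2) = 0 := by
      ext i
      fin_cases i <;> rfl
    rw [h5, map_zero]
  have h6 := hH.hess x (tl c) (tl c)
  rw [hess_add, ← hc] at h6
  have h7 : fderiv ℝ (fderiv ℝ (I.b (L.em x))) (I.S.ft x) (I.E x c) (I.E x c) +
      fderiv ℝ (fderiv ℝ (I.b (L.ep x))) (I.S.ft x) (I.E x c) (I.E x c) =
      inner ℝ (M.U x (tl c) + M.U (L.flip x) (tl c)) (tl c) := h6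
  rw [h7, inner_add_left]
  exact add_pos (M.U_pos x _ htl) (M.U_pos (L.flip x) _ htl)

/-! ### the structure `SB` -/

/-- Busemann data of the geometry. -/
def bdOf {M : Metr L} (hH : HessIn I M) : H908.BD B V where
  b := I.b
  b_jc := I.b_jc
  line := I.S.line
  line_cont := I.S.line_cont
  line_deriv := db_line I
  inj := fun _ _ _ h => db_inj I h
  surj := db_surj I
  sh := sh I
  sh_smooth := sh_smooth I
  sh_symm := sh_symm I
  unit := fun ξ q => by
    rw [db_eq, sh_G]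
    exact I.G_vel H459.invThm ξ q
  pos := hess_pos hH

/-- Slices and Busemann functions of the geometry. -/
def sbOf {M : Metr L} (hH : HessIn I M) : H908.SB X B V where
  L := I.S
  D := bdOf hH
  line_eq := fun _ _ => rfl
  psi_deriv := fun ξ q => by
    have h1 := I.S.hasDerivAt_psi H459.invThm ξ 0 q
    rw [I.S.psi_zero] at h1
    have h2 : (bdOf hH).vel ξ q = I.S.vel ξ q := by
      change sh I q (fderiv ℝ (I.b ξ) q) = I.S.vel ξ q
      rw [db_eq, sh_G]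
      rfl
    rw [h2]
    exact h1

/-- **From 266's Hessian function to `SmoothHess`.** -/
theorem smoothHess_of [Nonempty B] {M : Metr L} (hH : HessIn I M)
    (H : V → (V →L[ℝ] ℝ) → (V →L[ℝ] V →L[ℝ] ℝ))
    (hsm : ContDiffOn ℝ ∞ (fun p : V × (V →L[ℝ] ℝ) => H p.1 p.2) {p | p.2 ≠ 0})
    (heq : ∀ ξ q, fderiv ℝ (fderiv ℝ (I.b ξ)) q = H q (fderiv ℝ (I.b ξ) q))
    (hhom : ∀ q l (c : ℝ), 0 < c → H q (c • l) = c • H q l) : (bdOf hH).SmoothHess := by
  refine ContDiffOn.congr hsm ?_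
  intro p hp
  have h1 := (bdOf hH).dir_spec (p := p) hp
  have h2 := (bdOf hH).nrm_pos (p := p) hp
  change (bdOf hH).nrm p • fderiv ℝ (fderiv ℝ (I.b ((bdOf hH).dir p))) p.1 = H p.1 p.2
  rw [heq, ← hhom _ _ _ h2]
  congr 1

theorem tau_eq_of {x y : X} {e : X → E2 → B} (hinj : ∀ x, InjOn (e x) (closedBall (0 : E2) 3))
    {u v : E2} (hv : v ∈ closedBall (0 : E2) 3) (h : e x u = e y v) : tau e x y u = v := by
  rw [tau, h]
  exact (hinj y).leftInvOn_invFunOn hv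

theorem dom_eq_of {x y : X} {e e' : X → E2 → B} (he : ∀ x, ∀ u ∈ closedBall (0 : E2) 3,
    e x u = e' x u) : dom e x y = dom e' x y := by
  ext u
  constructor
  · rintro ⟨h1, v, hv, hvu⟩
    refine ⟨h1, v, hv, ?_⟩
    rw [← he y v (ball_subset_closedBall hv), ← he x u (ball_subset_closedBall h1), hvu]
  · rintro ⟨h1, v, hv, hvu⟩
    refine ⟨h1, v, hv, ?_⟩
    rw [he y v (ball_subset_closedBall hv), he x u (ball_subset_closedBall h1), hvu]

/-- **All transition maps are smooth, with jointly continuous derivatives.** -/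
theorem tau_jc [Nonempty B] {M : Metr L} (hH : HessIn I M) (hs : (bdOf hH).SmoothHess) :
    JC (fun p : X × X => L.τ p.1 p.2) {q : (X × X) × E2 | q.2 ∈ L.dm q.1.1 q.1.2} := by
  have h1 := (sbOf hH).tau_all hs
  have hset : {p : (X × X) × E2 | p.2 ∈ dom (sbOf hH).L.e p.1.1 p.1.2} =
      {q : (X × X) × E2 | q.2 ∈ L.dm q.1.1 q.1.2} := by
    ext p
    change p.2 ∈ dom I.S.e p.1.1 p.1.2 ↔ p.2 ∈ dom L.e p.1.1 p.1.2
    rw [dom_eq_of (e := I.S.e) (e' := L.e) I.e_eq]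
  rw [hset] at h1
  refine h1.congr ?_
  intro p hp
  obtain ⟨h2, v, hv, hvu⟩ := hp
  have hv' := ball_subset_closedBall hv
  change tau L.e p.1.1 p.1.2 p.2 = tau I.S.e p.1.1 p.1.2 p.2
  rw [tau_eq_of L.e_inj hv' hvu.symm, tau_eq_of I.S.e_inj hv' (v := v) (by
    rw [I.e_eq _ _ hv', I.e_eq _ _ (ball_subset_closedBall h2)]
    exact hvu.symm)]

/-- **`D (e x a) (e y b)` is smooth off the diagonal, with jointly continuous derivatives.** -/
theorem D_jc [Nonempty B] {M : Metr L} (hH : HessIn I M) (hs : (bdOf hH).SmoothHess) {o : V}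
    (hbo : ∀ ξ, I.b ξ o = 0) (D : B → B → ℝ)
    (hD : ∀ x, D (L.em x) (L.ep x) = L.lv x + L.lp x) :
    JC (fun (p : X × X) (z : E2 × E2) => D (L.e p.1 z.1) (L.e p.2 z.2))
      {q | q.2.1 ∈ ball (0 : E2) 3 ∧ q.2.2 ∈ ball (0 : E2) 3 ∧ L.e q.1.1 q.2.1 ≠ L.e q.1.2 q.2.2} := by
  have hjoin : ∀ ξ η : B, ξ ≠ η → ∃ q, (sbOf hH).D.line ξ q = η := by
    intro ξ η h
    obtain ⟨x, h1, h2, -⟩ := L.exists_frame ξ η h 0
    refine ⟨I.S.ft x, ?_⟩
    change I.S.line ξ (I.S.ft x) = η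
    rw [← h1, I.line_eq, h2]
  have hDd : ∀ ξ q, D ξ ((sbOf hH).D.line ξ q) =
      ((sbOf hH).D.b ξ q - (sbOf hH).D.b ξ o) +
        ((sbOf hH).D.b ((sbOf hH).D.line ξ q) q - (sbOf hH).D.b ((sbOf hH).D.line ξ q) o) := by
    intro ξ q
    change D ξ (I.S.line ξ q) = (I.b ξ q - I.b ξ o) +
      (I.b (I.S.line ξ q) q - I.b (I.S.line ξ q) o)
    obtain ⟨x, h1, h2, h3⟩ := I.exists_frame ξ q
    rw [hbo, hbo, sub_zero, sub_zero, ← h3, ← h1, ← h2, hD, I.b_lv]
    have h4 := I.b_lv (L.flip x)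
    rw [GeoIn.em_flip, I.ft_flip] at h4
    rw [h4]
    rfl
  have h1 := (sbOf hH).D_jc hs hjoin o D hDd
  have hopen : IsOpen {q : (X × X) × (E2 × E2) | q.2.1 ∈ ball (0 : E2) 3 ∧
      q.2.2 ∈ ball (0 : E2) 3 ∧ L.e q.1.1 q.2.1 ≠ L.e q.1.2 q.2.2} := by
    have hU : IsOpen {q : (X × X) × (E2 × E2) | q.2.1 ∈ ball (0 : E2) 3 ∧
        q.2.2 ∈ ball (0 : E2) 3} :=
      (isOpen_ball.preimage (f := fun q : (X × X) × (E2 × E2) => q.2.1) (by fun_prop)).inter
        (isOpen_ball.preimage (f := fun q : (X × X) × (E2 × E2) => q.2.2) (by fun_prop))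
    have hc : ContinuousOn (fun q : (X × X) × (E2 × E2) =>
        (L.e q.1.1 q.2.1, L.e q.1.2 q.2.2)) {q | q.2.1 ∈ ball (0 : E2) 3 ∧
        q.2.2 ∈ ball (0 : E2) 3} := by
      refine ContinuousOn.prodMk ?_ ?_
      · exact L.e_cont.comp (f := fun q : (X × X) × (E2 × E2) => (q.1.1, q.2.1)) (by fun_prop)
          fun q hq => ⟨mem_univ _, ball_subset_closedBall hq.1⟩
      · exact L.e_cont.comp (f := fun q : (X × X) × (E2 × E2) => (q.1.2, q.2.2)) (by fun_prop)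
          fun q hq => ⟨mem_univ _, ball_subset_closedBall hq.2⟩
    have hset : {q : (X × X) × (E2 × E2) | q.2.1 ∈ ball (0 : E2) 3 ∧
        q.2.2 ∈ ball (0 : E2) 3 ∧ L.e q.1.1 q.2.1 ≠ L.e q.1.2 q.2.2} =
        {q : (X × X) × (E2 × E2) | q.2.1 ∈ ball (0 : E2) 3 ∧ q.2.2 ∈ ball (0 : E2) 3} ∩
        (fun q : (X × X) × (E2 × E2) => (L.e q.1.1 q.2.1, L.e q.1.2 q.2.2)) ⁻¹'
          (diagonal B)ᶜ := by
      ext q
      constructor
      · rintro ⟨h1, h2, h3⟩
        exact ⟨⟨h1, h2⟩, h3⟩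
      · rintro ⟨⟨h1, h2⟩, h3⟩
        exact ⟨h1, h2, h3⟩
    rw [hset]
    exact hc.isOpen_inter_preimage hU isClosed_diagonal.isOpen_compl
  have he : ∀ x, ∀ u ∈ ball (0 : E2) 3, (sbOf hH).e x u = L.e x u := fun x u hu =>
    I.e_eq x u (ball_subset_closedBall hu)
  refine (h1.mono hopen ?_).congr ?_
  · rintro q ⟨h2, h3, h4⟩
    refine ⟨(sbOf hH).mem_BR (ball_subset_closedBall h2),
      (sbOf hH).mem_BR (ball_subset_closedBall h3), ?_⟩
    rw [he _ _ h2, he _ _ h3]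
    exact h4
  · rintro q ⟨h2, h3, h4⟩
    rw [he _ _ h2, he _ _ h3]

/-- **The fields of 442's structure `Smooth`**, from the nondegeneracy. -/
theorem smooth_of_nondeg [Nonempty B] {M : Metr L} (hH : HessIn I M)
    (hs : (bdOf hH).SmoothHess) {o : V} (hbo : ∀ ξ, I.b ξ o = 0) (D : B → B → ℝ)
    (hD : ∀ x, D (L.em x) (L.ep x) = L.lv x + L.lp x)
    (hnd : ∀ x y, ∀ p ∈ H442.OD L x y, Function.Injective
      (fderiv ℝ (fun b => fderiv ℝ (fun a => D (L.e x a) (L.e y b)) p.1) p.2)) :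
    H442.Smooth L D where
  tau_smooth := fun x y => (tau_jc hH hs).smooth (x, y)
  tau_cont := (tau_jc hH hs).fderiv.continuousOn
  D_smooth := fun x y => (D_jc hH hs hbo D hD).smooth (x, y)
  nondeg := hnd

theorem join_of {M : Metr L} (hH : HessIn I M) :
    ∀ ξ η : B, ξ ≠ η → ∃ q, (sbOf hH).D.line ξ q = η := by
  intro ξ η h
  obtain ⟨x, h1, h2, -⟩ := L.exists_frame ξ η h 0
  refine ⟨I.S.ft x, ?_⟩
  change I.S.line ξ (I.S.ft x) = η
  rw [← h1, I.line_eq, h2]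

theorem Dd_of {M : Metr L} (hH : HessIn I M) {o : V} (hbo : ∀ ξ, I.b ξ o = 0) (D : B → B → ℝ)
    (hD : ∀ x, D (L.em x) (L.ep x) = L.lv x + L.lp x) : ∀ ξ q, D ξ ((sbOf hH).D.line ξ q) =
      ((sbOf hH).D.b ξ q - (sbOf hH).D.b ξ o) +
        ((sbOf hH).D.b ((sbOf hH).D.line ξ q) q - (sbOf hH).D.b ((sbOf hH).D.line ξ q) o) := by
  intro ξ q
  change D ξ (I.S.line ξ q) = (I.b ξ q - I.b ξ o) +
    (I.b (I.S.line ξ q) q - I.b (I.S.line ξ q) o)
  obtain ⟨x, h1, h2, h3⟩ := I.exists_frame ξ q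
  rw [hbo, hbo, sub_zero, sub_zero, ← h3, ← h1, ← h2, hD, I.b_lv]
  have h4 := I.b_lv (L.flip x)
  rw [GeoIn.em_flip, I.ft_flip] at h4
  rw [h4]
  rfl

/-- **The mixed second derivative of `D` is nondegenerate.** -/
theorem nondeg_of [Nonempty B] {M : Metr L} (hH : HessIn I M) (hs : (bdOf hH).SmoothHess) {o : V}
    (hbo : ∀ ξ, I.b ξ o = 0) (D : B → B → ℝ)
    (hD : ∀ x, D (L.em x) (L.ep x) = L.lv x + L.lp x) (x y : X) (p : E2 × E2)
    (hp : p ∈ H442.OD L x y) : Function.Injective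
      (fderiv ℝ (fun b => fderiv ℝ (fun a => D (L.e x a) (L.e y b)) p.1) p.2) := by
  obtain ⟨h1, h2, h3⟩ := hp
  have he : ∀ x, ∀ u ∈ ball (0 : E2) 3, (sbOf hH).e x u = L.e x u := fun x u hu =>
    I.e_eq x u (ball_subset_closedBall hu)
  have h4 := (sbOf hH).nondeg hs (join_of hH) o (Dd_of hH hbo D hD) h1 h2
    (by rw [he _ _ h1, he _ _ h2]; exact h3)
  have h5 : (fun b => fderiv ℝ (fun a => D ((sbOf hH).e x a) ((sbOf hH).e y b)) p.1) =ᶠ[𝓝 p.2]
      fun b => fderiv ℝ (fun a => D (L.e x a) (L.e y b)) p.1 := by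
    filter_upwards [isOpen_ball.mem_nhds h2] with b hb
    refine Filter.EventuallyEq.fderiv_eq ?_
    filter_upwards [isOpen_ball.mem_nhds h1] with a ha
    rw [he _ _ ha, he _ _ hb]
  rw [h5.fderiv_eq] at h4
  exact h4

/-- **442's structure `Smooth`** from the smoothness of the Hessian function. -/
theorem smooth_of_smoothHess [Nonempty B] {M : Metr L} (hH : HessIn I M)
    (hs : (bdOf hH).SmoothHess) {o : V} (hbo : ∀ ξ, I.b ξ o = 0) (D : B → B → ℝ)
    (hD : ∀ x, D (L.em x) (L.ep x) = L.lv x + L.lp x) : H442.Smooth L D :=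
  smooth_of_nondeg hH hs hbo D hD (nondeg_of hH hs hbo D hD)

/-- **442's structure `Smooth`** from the Hessian function `H` of the covectors. -/
theorem smooth_of {M : Metr L} (hH : HessIn I M) {o : V} (hbo : ∀ ξ, I.b ξ o = 0)
    (D : B → B → ℝ) (hD : ∀ x, D (L.em x) (L.ep x) = L.lv x + L.lp x)
    (H : V → (V →L[ℝ] ℝ) → (V →L[ℝ] V →L[ℝ] ℝ))
    (hsm : ContDiffOn ℝ ∞ (fun p : V × (V →L[ℝ] ℝ) => H p.1 p.2) {p | p.2 ≠ 0})
    (heq : ∀ ξ q, fderiv ℝ (fderiv ℝ (I.b ξ)) q = H q (fderiv ℝ (I.b ξ) q))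
    (hhom : ∀ q l (c : ℝ), 0 < c → H q (c • l) = c • H q l) : H442.Smooth L D := by
  have hne : Nonempty B := ⟨L.em (Classical.choice L.nonempty)⟩
  exact smooth_of_smoothHess hH (smoothHess_of hH H hsm heq hhom) hbo D hD

end Vale.Agent.P207.N3.H289
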