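import Vale.Agent.P207.N3.H289.Bridge
import Vale.Agent.P207.N3.H828.SmB

/-!
# P207, line N3, row P12G: the structure `SmB` of the smooth boundary (helper289)
-/

set_option linter.unusedSectionVars false

open Set Filter Topology Metric MeasureTheory
open scoped ContDiff

noncomputable section

namespace Vale.Agent.P207.N3.H289

open Vale.Agent.P207.N3.H722 (GeoIn HessIn)

variable {Γ X B : Type} [Group Γ] [MetricSpace X] [ProperSpace X] [MulAction Γ X]
  [IsIsometricSMul Γ X] [TopologicalSpace B] [CompactSpace B] [T2Space B] [MulAction Γ B]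
  [ContinuousConstSMul Γ B]
  {L : Leaf Γ X B} {V : Type} [NormedAddCommGroup V] [NormedSpace ℝ V]
  [FiniteDimensional ℝ V] {I : GeoIn L V}

/-- **828's structure `SmB`** from the smoothness of the Hessian function. -/
theorem smB_of_smoothHess [Nonempty B] {M : Metr L} (hH : HessIn I M)
    (hs : (bdOf hH).SmoothHess) {o : V} (hbo : ∀ ξ, I.b ξ o = 0) (D : B → B → ℝ)
    (hD : ∀ x, D (L.em x) (L.ep x) = L.lv x + L.lp x) : H828.SmB L D where
  tau_jc := tau_jc hH hs
  f_jc := D_jc hH hs hbo D hD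
  nd := fun q hq => nondeg_of hH hs hbo D hD q.1.1 q.1.2 q.2 hq

/-- **828's structure `SmB`** from the Hessian function `H` of the covectors. -/
theorem smB_of {M : Metr L} (hH : HessIn I M) {o : V} (hbo : ∀ ξ, I.b ξ o = 0)
    (D : B → B → ℝ) (hD : ∀ x, D (L.em x) (L.ep x) = L.lv x + L.lp x)
    (H : V → (V →L[ℝ] ℝ) → (V →L[ℝ] V →L[ℝ] ℝ))
    (hsm : ContDiffOn ℝ ∞ (fun p : V × (V →L[ℝ] ℝ) => H p.1 p.2) {p | p.2 ≠ 0})
    (heq : ∀ ξ q, fderiv ℝ (fderiv ℝ (I.b ξ)) q = H q (fderiv ℝ (I.b ξ) q))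
    (hhom : ∀ q l (c : ℝ), 0 < c → H q (c • l) = c • H q l) : H828.SmB L D := by
  have hne : Nonempty B := ⟨L.em (Classical.choice L.nonempty)⟩
  exact smB_of_smoothHess hH (smoothHess_of hH H hsm heq hhom) hbo D hD

end Vale.Agent.P207.N3.H289
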