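import Vale.Agent.P207.N3.H289.BridgeB
import Vale.Agent.P207.N3.H266.HessB

/-!
# P207, line N3, row P12G: the smooth alternative gives the smooth boundary (helper289)

`smooth_alt` : in the smooth alternative (the curvature forms of the leaves are smooth) the
transversal transition maps, the function `D` of the pairs of end points are smooth, and the mixed
second derivative is nondegenerate: 442's structure `Smooth` and 828's structure `SmB`.
-/

set_option linter.unusedSectionVars false

open Set Filter Topology Metric MeasureTheory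
open scoped ContDiff

noncomputable section

namespace Vale.Agent.P207.N3.H289

open Vale.Agent.P207.N3.H722 (GeoIn HessIn)

variable {Γ X B : Type} [Group Γ] [MetricSpace X] [ProperSpace X] [MulAction Γ X]
  [IsIsometricSMul Γ X] [TopologicalSpace B] [CompactSpace B] [T2Space B] [MulAction Γ B]
  [ContinuousConstSMul Γ B]
  {L : Leaf Γ X B} {V : Type} [NormedAddCommGroup V] [NormedSpace ℝ V]
  [FiniteDimensional ℝ V] {I : GeoIn L V}

/-- **The smooth alternative gives 442's structure `Smooth`.** -/
theorem smooth_alt {M : Metr L} (hH : HessIn I M) (hS : SmoothAlt (Ten.tens M)) {o : V}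
    (hbo : ∀ ξ, I.b ξ o = 0) (D : B → B → ℝ)
    (hD : ∀ x, D (L.em x) (L.ep x) = L.lv x + L.lp x) : H442.Smooth L D := by
  obtain ⟨H, h1, h2, h3⟩ := H266.exists_hess I M hH hS
  exact smooth_of hH hbo D hD H h1 h2 h3

/-- **The smooth alternative gives 828's structure `SmB`.** -/
theorem smB_alt {M : Metr L} (hH : HessIn I M) (hS : SmoothAlt (Ten.tens M)) {o : V}
    (hbo : ∀ ξ, I.b ξ o = 0) (D : B → B → ℝ)
    (hD : ∀ x, D (L.em x) (L.ep x) = L.lv x + L.lp x) : H828.SmB L D := by
  obtain ⟨H, h1, h2, h3⟩ := H266.exists_hess I M hH hS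
  exact smB_of hH hbo D hD H h1 h2 h3

end Vale.Agent.P207.N3.H289
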